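import Mathlib

/-!
# P052: the finite core of the plain Borsuk-Ulam route (helper38), hand proof (helper191)

`K` is the family of faces on ten colours.
-/

namespace P052H191

open Finset

variable {K : Finset (Fin 10) → Prop}

open Classical in
/-- `1` for a nonface, `0` for a face. -/
noncomputable def tt (K : Finset (Fin 10) → Prop) (T : Finset (Fin 10)) : ℤ := if K T then 0 else 1

lemma tt_nonneg (T : Finset (Fin 10)) : 0 ≤ tt K T := by
  unfold tt; split_ifs <;> norm_num

lemma tt_le_one (T : Finset (Fin 10)) : tt K T ≤ 1 := by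
  unfold tt; split_ifs <;> norm_num

lemma tt_of_K {T : Finset (Fin 10)} (h : K T) : tt K T = 0 := by
  unfold tt; simp [h]

lemma tt_of_not {T : Finset (Fin 10)} (h : ¬ K T) : tt K T = 1 := by
  unfold tt; simp [h]

lemma K_of_tt {T : Finset (Fin 10)} (h : tt K T = 0) : K T := by
  unfold tt at h; by_contra hh; simp [hh] at h

/-- six points, complementary triples, four-subsets. -/
lemma six (τ : Finset (Fin 6) → ℤ)
    (h1 : ∀ T : Finset (Fin 6), T.card = 3 → τ T + τ Tᶜ = 1)
    (h2 : ∀ S : Finset (Fin 6), S.card = 4 → 2 ≤ ∑ T ∈ S.powersetCard 3, τ T) :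
    ∀ S : Finset (Fin 6), S.card = 4 → ∑ T ∈ S.powersetCard 3, τ T = 2 := by
  intro S hS
  -- total
  have htot : ∑ T ∈ (univ : Finset (Fin 6)).powersetCard 3, τ T = 10 := by
    have h3 : ∑ T ∈ (univ : Finset (Fin 6)).powersetCard 3, τ T
        = ∑ T ∈ (univ : Finset (Fin 6)).powersetCard 3, τ Tᶜ := by
      refine Finset.sum_nbij' (fun T => Tᶜ) (fun T => Tᶜ) ?_ ?_ ?_ ?_ ?_
      · intro T hT
        simp only [mem_powersetCard, subset_univ, true_and] at hT ⊢
        rw [card_compl, hT]; rfl
      · intro T hT
        simp only [mem_powersetCard, subset_univ, true_and] at hT ⊢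
        rw [card_compl, hT]; rfl
      · intro T _; simp
      · intro T _; simp
      · intro T _; simp
    have h4 : ∑ T ∈ (univ : Finset (Fin 6)).powersetCard 3, (τ T + τ Tᶜ) = 20 := by
      rw [Finset.sum_congr rfl (g := fun _ => (1 : ℤ))]
      · simp; decide
      · intro T hT
        exact h1 T (by simpa using hT)
    rw [Finset.sum_add_distrib, ← h3] at h4
    linarith
  have hdouble : ∑ S ∈ (univ : Finset (Fin 6)).powersetCard 4, ∑ T ∈ S.powersetCard 3, τ T
      = ∑ T ∈ (univ : Finset (Fin 6)).powersetCard 3,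
          ∑ S ∈ ((univ : Finset (Fin 6)).powersetCard 4).filter (fun S => T ⊆ S), τ T := by
    refine Finset.sum_comm' ?_
    intro S T
    simp only [mem_powersetCard, subset_univ, true_and, mem_filter]
    tauto
  have hcount : ∀ T ∈ (univ : Finset (Fin 6)).powersetCard 3,
      (((univ : Finset (Fin 6)).powersetCard 4).filter (fun S => T ⊆ S)).card = 3 := by
    decide
  have hdouble2 : ∑ S ∈ (univ : Finset (Fin 6)).powersetCard 4, ∑ T ∈ S.powersetCard 3, τ T = 30 := by
    rw [hdouble]
    have : ∀ T ∈ (univ : Finset (Fin 6)).powersetCard 3,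
        ∑ S ∈ ((univ : Finset (Fin 6)).powersetCard 4).filter (fun S => T ⊆ S), τ T = 3 * τ T := by
      intro T hT
      rw [Finset.sum_const, hcount T hT]; simp
    rw [Finset.sum_congr rfl this, ← Finset.mul_sum, htot]; norm_num
  have hall : ∑ S ∈ (univ : Finset (Fin 6)).powersetCard 4, (2 : ℤ) = 30 := by
    rw [Finset.sum_const]; simp; decide
  have hmem : S ∈ (univ : Finset (Fin 6)).powersetCard 4 := by simp [hS]
  by_contra hne
  have hlt : (2 : ℤ) < ∑ T ∈ S.powersetCard 3, τ T :=
    lt_of_le_of_ne (h2 S hS) (fun h => hne h.symm)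
  have := Finset.sum_lt_sum (s := (univ : Finset (Fin 6)).powersetCard 4)
    (f := fun _ => (2 : ℤ)) (g := fun S => ∑ T ∈ S.powersetCard 3, τ T)
    (fun S' hS' => h2 S' (by simpa using hS')) ⟨S, hmem, hlt⟩
  rw [hall, hdouble2] at this
  exact lt_irrefl _ this

/-- (P2): a 4-subset of the complement of a facet has exactly two nonface triples. -/
lemma P2
    (pairs : ∀ A : Finset (Fin 10), A.card ≤ 2 → K A)
    (cover3 : ∀ A B C : Finset (Fin 10), K A → K B → K C → A ∪ B ∪ C ≠ univ)
    (iv : ∀ A T T' : Finset (Fin 10), K A → A.card = 4 → T.card = 3 → T'.card = 3 →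
      A ∪ T ∪ T' = univ → (K T ∨ K T'))
    (L4 : ∀ I : Finset (Fin 10), I.card = 4 → ¬ K I →
      ∀ o ∈ I, ∃ T, T ⊆ I ∧ T.card = 3 ∧ o ∈ T ∧ ¬ K T)
    {A : Finset (Fin 10)} (hA : K A) (hA4 : A.card = 4)
    {S : Finset (Fin 10)} (hS4 : S.card = 4) (hSA : Disjoint A S) :
    ∑ T ∈ S.powersetCard 3, tt K T = 2 := by
  classical
  have hAc : (Aᶜ).card = 6 := by rw [card_compl, hA4]; rfl
  let p : Fin 6 ↪ Fin 10 := ((Aᶜ).orderEmbOfFin hAc).toEmbedding
  have hrange : (univ : Finset (Fin 6)).map p = Aᶜ := by
    ext x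
    have := Finset.range_orderEmbOfFin (Aᶜ) hAc
    simp only [mem_map, mem_univ, true_and]
    constructor
    · rintro ⟨i, rfl⟩
      exact Finset.orderEmbOfFin_mem (Aᶜ) hAc i
    · intro hx
      have hx' : x ∈ Set.range ((Aᶜ).orderEmbOfFin hAc) := by rw [this]; exact hx
      obtain ⟨i, hi⟩ := hx'
      exact ⟨i, hi⟩
  have hdisj : ∀ S : Finset (Fin 6), Disjoint A (S.map p) := by
    intro S
    rw [Finset.disjoint_left]
    intro x hx hx'
    have : x ∈ (univ : Finset (Fin 6)).map p := by
      exact Finset.map_subset_map.mpr (subset_univ S) hx'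
    rw [hrange] at this
    exact (mem_compl.mp this) hx
  have hcompl : ∀ S : Finset (Fin 6), A ∪ S.map p ∪ (Sᶜ).map p = univ := by
    intro S
    rw [union_assoc, ← Finset.map_union]
    rw [Finset.union_compl, hrange, Finset.union_compl]
  have key := six (fun T => tt K (T.map p)) ?_ ?_
  · -- transport back
    have hSsub : S ⊆ (univ : Finset (Fin 6)).map p := by
      rw [hrange]
      intro x hx
      rw [mem_compl]
      intro hxA
      exact (Finset.disjoint_left.mp hSA) hxA hx
    obtain ⟨S', hS'⟩ : ∃ S' : Finset (Fin 6), S'.map p = S := by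
      obtain ⟨u, _, hu⟩ := Finset.subset_map_iff.mp hSsub
      exact ⟨u, hu.symm⟩
    have hS'4 : S'.card = 4 := by rw [← Finset.card_map p, hS', hS4]
    have h := key S' hS'4
    rw [← hS', Finset.powersetCard_map, Finset.sum_map]
    exact h
  · intro T hT
    have hTc : (Tᶜ).card = 3 := by rw [card_compl, hT]; rfl
    have h1 := iv A (T.map p) ((Tᶜ).map p) hA hA4 (by rw [card_map, hT]) (by rw [card_map, hTc])
      (hcompl T)
    have h2 : ¬ (K (T.map p) ∧ K ((Tᶜ).map p)) := by
      rintro ⟨ha, hb⟩
      exact cover3 _ _ _ hA ha hb (hcompl T)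
    by_cases h3 : K (T.map p)
    · have h4 : ¬ K ((Tᶜ).map p) := fun h => h2 ⟨h3, h⟩
      simp only [tt_of_K h3, tt_of_not h4]; norm_num
    · have h4 : K ((Tᶜ).map p) := by tauto
      simp only [tt_of_K h4, tt_of_not h3]; norm_num
  · intro S hS
    have hSK : ¬ K (S.map p) := by
      intro h
      have hc : ((Sᶜ).map p).card ≤ 2 := by rw [card_map, card_compl, hS]; decide
      exact cover3 _ _ _ hA h (pairs _ hc) (hcompl S)
    have hcard : (S.map p).card = 4 := by rw [card_map, hS]
    have hne : (S.map p).Nonempty := by rw [← Finset.card_pos, hcard]; norm_num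
    obtain ⟨o, ho⟩ := hne
    obtain ⟨T, hTS, hT3, hoT, hTK⟩ := L4 _ hcard hSK o ho
    have hex : ∃ o' ∈ S.map p, o' ∉ T := by
      by_contra hh
      push Not at hh
      have := Finset.card_le_card (show S.map p ⊆ T from hh)
      omega
    obtain ⟨o', ho', ho'T⟩ := hex
    obtain ⟨T', hTS', hT3', hoT', hTK'⟩ := L4 _ hcard hSK o' ho'
    have hneT : T ≠ T' := by
      rintro rfl
      exact ho'T hoT'
    have hsum : ∑ T ∈ S.powersetCard 3, tt K (T.map p)
        = ∑ T ∈ (S.map p).powersetCard 3, tt K T := by
      rw [Finset.powersetCard_map, Finset.sum_map]; rfl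
    rw [hsum]
    have hsub : ({T, T'} : Finset (Finset (Fin 10))) ⊆ (S.map p).powersetCard 3 := by
      intro X hX
      simp only [mem_insert, mem_singleton] at hX
      rcases hX with rfl | rfl
      · exact mem_powersetCard.mpr ⟨hTS, hT3⟩
      · exact mem_powersetCard.mpr ⟨hTS', hT3'⟩
    calc (2 : ℤ) = ∑ X ∈ ({T, T'} : Finset (Finset (Fin 10))), tt K X := by
          rw [Finset.sum_pair hneT, tt_of_not hTK, tt_of_not hTK']; norm_num
      _ ≤ _ := Finset.sum_le_sum_of_subset_of_nonneg hsub (fun X _ _ => tt_nonneg X)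

lemma sum_three {f : Finset (Fin 10) → ℤ} {S : Finset (Fin 10)} (hS : S.card = 4) :
    ∑ T ∈ S.powersetCard 3, f T = ∑ x ∈ S, f (S.erase x) := by
  classical
  symm
  refine Finset.sum_bij (fun x _ => S.erase x) ?_ ?_ ?_ ?_
  · intro x hx
    refine mem_powersetCard.mpr ⟨erase_subset _ _, ?_⟩
    rw [card_erase_of_mem hx, hS]
  · intro x hx y hy hxy
    exact (Finset.erase_injOn S) hx hy hxy
  · intro T hT
    obtain ⟨hTS, hT3⟩ := mem_powersetCard.mp hT
    have h1 : (S \ T).card = 1 := by rw [card_sdiff_of_subset hTS, hS, hT3]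
    obtain ⟨x, hx⟩ := card_eq_one.mp h1
    have hxS : x ∈ S \ T := by rw [hx]; exact mem_singleton_self x
    refine ⟨x, (mem_sdiff.mp hxS).1, ?_⟩
    ext y
    constructor
    · intro hy
      by_contra hyT
      have : y ∈ S \ T := mem_sdiff.mpr ⟨(mem_erase.mp hy).2, hyT⟩
      rw [hx, mem_singleton] at this
      exact (mem_erase.mp hy).1 this
    · intro hy
      refine mem_erase.mpr ⟨?_, hTS hy⟩
      rintro rfl
      exact (mem_sdiff.mp hxS).2 hy
  · intro x hx; rfl

lemma sum_four {f : Finset (Fin 10) → ℤ} {x y z w : Fin 10}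
    (hxy : x ≠ y) (hxz : x ≠ z) (hxw : x ≠ w) (hyz : y ≠ z) (hyw : y ≠ w) (hzw : z ≠ w) :
    ∑ T ∈ ({x, y, z, w} : Finset (Fin 10)).powersetCard 3, f T
      = f {x, y, z} + f {x, y, w} + f {x, z, w} + f {y, z, w} := by
  classical
  have hcard : ({x, y, z, w} : Finset (Fin 10)).card = 4 := by
    rw [card_insert_of_notMem, card_insert_of_notMem, card_insert_of_notMem, card_singleton] <;>
      simp <;> tauto
  rw [sum_three hcard]
  have e1 : ({x, y, z, w} : Finset (Fin 10)).erase x = {y, z, w} := by
    ext u; simp only [mem_erase, mem_insert, mem_singleton]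
    constructor
    · tauto
    · rintro (rfl | rfl | rfl) <;> tauto
  have e2 : ({x, y, z, w} : Finset (Fin 10)).erase y = {x, z, w} := by
    ext u; simp only [mem_erase, mem_insert, mem_singleton]
    constructor
    · tauto
    · rintro (rfl | rfl | rfl) <;> tauto
  have e3 : ({x, y, z, w} : Finset (Fin 10)).erase z = {x, y, w} := by
    ext u; simp only [mem_erase, mem_insert, mem_singleton]
    constructor
    · tauto
    · rintro (rfl | rfl | rfl) <;> tauto
  have e4 : ({x, y, z, w} : Finset (Fin 10)).erase w = {x, y, z} := by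
    ext u; simp only [mem_erase, mem_insert, mem_singleton]
    constructor
    · tauto
    · rintro (rfl | rfl | rfl) <;> tauto
  rw [sum_insert, sum_insert, sum_insert, sum_singleton, e1, e2, e3, e4]
  · ring
  · simp; tauto
  · simp; tauto
  · simp; tauto

/-- (P2) with explicit points. -/
lemma P2'
    (pairs : ∀ A : Finset (Fin 10), A.card ≤ 2 → K A)
    (cover3 : ∀ A B C : Finset (Fin 10), K A → K B → K C → A ∪ B ∪ C ≠ univ)
    (iv : ∀ A T T' : Finset (Fin 10), K A → A.card = 4 → T.card = 3 → T'.card = 3 →
      A ∪ T ∪ T' = univ → (K T ∨ K T'))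
    (L4 : ∀ I : Finset (Fin 10), I.card = 4 → ¬ K I →
      ∀ o ∈ I, ∃ T, T ⊆ I ∧ T.card = 3 ∧ o ∈ T ∧ ¬ K T)
    {A : Finset (Fin 10)} (hA : K A) (hA4 : A.card = 4)
    {x y z w : Fin 10} (hx : x ∉ A) (hy : y ∉ A) (hz : z ∉ A) (hw : w ∉ A)
    (hxy : x ≠ y) (hxz : x ≠ z) (hxw : x ≠ w) (hyz : y ≠ z) (hyw : y ≠ w) (hzw : z ≠ w) :
    tt K {x, y, z} + tt K {x, y, w} + tt K {x, z, w} + tt K {y, z, w} = 2 := by
  classical
  have hcard : ({x, y, z, w} : Finset (Fin 10)).card = 4 := by
    rw [card_insert_of_notMem, card_insert_of_notMem, card_insert_of_notMem, card_singleton] <;>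
      simp <;> tauto
  have hdisj : Disjoint A ({x, y, z, w} : Finset (Fin 10)) := by
    rw [Finset.disjoint_right]
    intro u hu
    simp only [mem_insert, mem_singleton] at hu
    rcases hu with rfl | rfl | rfl | rfl <;> assumption
  have := P2 pairs cover3 iv L4 hA hA4 hcard hdisj
  rwa [sum_four hxy hxz hxw hyz hyw hzw] at this

/-- (Lemma 1). -/
lemma twins
    (pairs : ∀ A : Finset (Fin 10), A.card ≤ 2 → K A)
    (cover3 : ∀ A B C : Finset (Fin 10), K A → K B → K C → A ∪ B ∪ C ≠ univ)
    (iv : ∀ A T T' : Finset (Fin 10), K A → A.card = 4 → T.card = 3 → T'.card = 3 →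
      A ∪ T ∪ T' = univ → (K T ∨ K T'))
    (L4 : ∀ I : Finset (Fin 10), I.card = 4 → ¬ K I →
      ∀ o ∈ I, ∃ T, T ⊆ I ∧ T.card = 3 ∧ o ∈ T ∧ ¬ K T)
    {A : Finset (Fin 10)} (hA : K A) (hA4 : A.card = 4)
    {a b : Fin 10} (ha : a ∈ A) (hb : b ∉ A) (hAb : K (insert b (A.erase a)))
    {x y : Fin 10} (hx : x ∉ A) (hy : y ∉ A) (hxb : x ≠ b) (hyb : y ≠ b) (hxy : x ≠ y) :
    tt K {a, x, y} = tt K {b, x, y} := by
  classical
  have hab : a ≠ b := fun h => hb (h ▸ ha)
  set A' := insert b (A.erase a) with hA'
  have hbe : b ∉ A.erase a := fun h => hb (mem_of_mem_erase h)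
  have hA'4 : A'.card = 4 := by
    rw [hA', card_insert_of_notMem hbe, card_erase_of_mem ha, hA4]
  have haA' : a ∉ A' := by
    rw [hA', mem_insert]; push Not
    exact ⟨hab, fun h => (mem_erase.mp h).1 rfl⟩
  have hnA' : ∀ u : Fin 10, u ∉ A → u ≠ b → u ∉ A' := by
    intro u hu hub
    rw [hA', mem_insert]; push Not
    exact ⟨hub, fun h => hu (mem_of_mem_erase h)⟩
  -- the difference
  have D : ∀ u v w : Fin 10, u ∉ A → v ∉ A → w ∉ A → u ≠ b → v ≠ b → w ≠ b →
      u ≠ v → u ≠ w → v ≠ w →
      (tt K {a, u, v} - tt K {b, u, v}) + (tt K {a, u, w} - tt K {b, u, w})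
        + (tt K {a, v, w} - tt K {b, v, w}) = 0 := by
    intro u v w hu hv hw hub hvb hwb huv huw hvw
    have e1 := P2' pairs cover3 iv L4 hA hA4 hb hu hv hw hub.symm hvb.symm hwb.symm huv huw hvw
    have hau : a ≠ u := fun h => hu (h ▸ ha)
    have hav : a ≠ v := fun h => hv (h ▸ ha)
    have haw : a ≠ w := fun h => hw (h ▸ ha)
    have e2 := P2' pairs cover3 iv L4 hAb hA'4 haA' (hnA' u hu hub) (hnA' v hv hvb)
      (hnA' w hw hwb) hau hav haw huv huw hvw
    linarith
  -- three more points
  have hcard : ((Aᶜ).erase b \ {x, y}).card = 3 := by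
    rw [card_sdiff_of_subset, card_erase_of_mem (mem_compl.mpr hb), card_compl, hA4,
      card_pair hxy]
    · rfl
    · intro u hu
      simp only [mem_insert, mem_singleton] at hu
      rcases hu with rfl | rfl
      · exact mem_erase.mpr ⟨hxb, mem_compl.mpr hx⟩
      · exact mem_erase.mpr ⟨hyb, mem_compl.mpr hy⟩
  obtain ⟨z, w, v, hzw, hzv, hwv, hset⟩ := card_eq_three.mp hcard
  have hmem : ∀ u, u ∈ ({z, w, v} : Finset (Fin 10)) → u ∉ A ∧ u ≠ b ∧ x ≠ u ∧ y ≠ u := by
    intro u hu
    rw [← hset] at hu
    simp only [mem_sdiff, mem_erase, mem_compl, mem_insert, mem_singleton, not_or] at hu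
    exact ⟨hu.1.2, hu.1.1, fun h => hu.2.1 h.symm, fun h => hu.2.2 h.symm⟩
  obtain ⟨hz, hzb, hxz, hyz⟩ := hmem z (by simp)
  obtain ⟨hw, hwb, hxw, hyw⟩ := hmem w (by simp)
  obtain ⟨hv, hvb, hxv, hyv⟩ := hmem v (by simp)
  have d1 := D x y z hx hy hz hxb hyb hzb hxy hxz hyz
  have d2 := D x y w hx hy hw hxb hyb hwb hxy hxw hyw
  have d3 := D x y v hx hy hv hxb hyb hvb hxy hxv hyv
  have d4 := D x z w hx hz hw hxb hzb hwb hxz hxw hzw
  have d5 := D x z v hx hz hv hxb hzb hvb hxz hxv hzv
  have d6 := D x w v hx hw hv hxb hwb hvb hxw hxv hwv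
  have d7 := D y z w hy hz hw hyb hzb hwb hyz hyw hzw
  have d8 := D y z v hy hz hv hyb hzb hvb hyz hyv hzv
  have d9 := D y w v hy hw hv hyb hwb hvb hyw hyv hwv
  have d10 := D z w v hz hw hv hzb hwb hvb hzw hzv hwv
  linarith

/-- THE FINITE CORE. -/
theorem fin38
    (down : ∀ A B : Finset (Fin 10), K A → B ⊆ A → K B)
    (pairs : ∀ A : Finset (Fin 10), A.card ≤ 2 → K A)
    (facet : ∃ A : Finset (Fin 10), A.card = 4 ∧ K A)
    (cover3 : ∀ A B C : Finset (Fin 10), K A → K B → K C → A ∪ B ∪ C ≠ univ)
    (iv : ∀ A T T' : Finset (Fin 10), K A → A.card = 4 → T.card = 3 → T'.card = 3 →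
      A ∪ T ∪ T' = univ → (K T ∨ K T'))
    (L4 : ∀ I : Finset (Fin 10), I.card = 4 → ¬ K I →
      ∀ o ∈ I, ∃ T, T ⊆ I ∧ T.card = 3 ∧ o ∈ T ∧ ¬ K T)
    (L5 : ∀ I : Finset (Fin 10), I.card = 5 → ∃ T, T ⊆ I ∧ T.card = 3 ∧ ¬ K T)
    (WV : ∀ A : Finset (Fin 10), K A → A.card = 4 → ∀ a ∈ A, ∃ b, b ∉ A ∧
      K (insert b (A.erase a))) : False := by
  classical
  obtain ⟨A, hA4, hA⟩ := facet
  choose b hb hKb using fun a : {a // a ∈ A} => WV A hA hA4 a.1 a.2
  -- the points b_a are distinct
  have hinj : ∀ a a' : {a // a ∈ A}, a ≠ a' → b a ≠ b a' := by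
    intro a a' haa' hbb
    have hne : a.1 ≠ a'.1 := fun h => haa' (Subtype.ext h)
    -- all triples of insert (b a) A are faces
    have hI5 : (insert (b a) A).card = 5 := by rw [card_insert_of_notMem (hb a), hA4]
    obtain ⟨T, hTI, hT3, hTK⟩ := L5 _ hI5
    apply hTK
    by_cases h1 : b a ∈ T
    · -- T contains b a
      by_cases h2 : a.1 ∈ T
      · by_cases h3 : a'.1 ∈ T
        · -- T = {a, a', b}
          by_contra hTK'
          -- take a third point c of A
          have hc : (A \ {a.1, a'.1}).Nonempty := by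
            rw [← card_pos, card_sdiff_of_subset, hA4, card_pair hne]
            · norm_num
            · intro u hu
              simp only [mem_insert, mem_singleton] at hu
              rcases hu with rfl | rfl
              · exact a.2
              · exact a'.2
          obtain ⟨c, hc⟩ := hc
          simp only [mem_sdiff, mem_insert, mem_singleton, not_or] at hc
          obtain ⟨hcA, hca, hca'⟩ := hc
          have hTeq : ({a.1, a'.1, b a} : Finset (Fin 10)) = T := by
            apply Finset.eq_of_subset_of_card_le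
            · intro u hu
              simp only [mem_insert, mem_singleton] at hu
              rcases hu with rfl | rfl | rfl <;> assumption
            · rw [hT3, card_insert_of_notMem, card_pair]
              · exact fun h => hb a (h ▸ a'.2)
              · simp only [mem_insert, mem_singleton, not_or]
                exact ⟨hne, fun h => hb a (h ▸ a.2)⟩
          have hcT : c ∉ T := by
            rw [← hTeq]
            simp only [mem_insert, mem_singleton, not_or]
            exact ⟨hca, hca', fun h => hb a (h ▸ hcA)⟩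
          have hI4 : (insert c T).card = 4 := by rw [card_insert_of_notMem hcT, hT3]
          have hIK : ¬ K (insert c T) := fun h => hTK' (down _ _ h (subset_insert _ _))
          obtain ⟨T', hT'I, hT'3, hcT', hT'K⟩ := L4 _ hI4 hIK c (mem_insert_self _ _)
          apply hT'K
          have hmem : ∀ u ∈ T', u = c ∨ u = a.1 ∨ u = a'.1 ∨ u = b a := by
            intro u hu
            have := hT'I hu
            rw [← hTeq] at this
            simpa only [mem_insert, mem_singleton] using this
          by_cases h4 : a.1 ∈ T'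
          · by_cases h5 : a'.1 ∈ T'
            · -- T' = {c,a,a'} ⊆ A
              refine down _ _ hA ?_
              have : ({c, a.1, a'.1} : Finset (Fin 10)) = T' := by
                apply Finset.eq_of_subset_of_card_le
                · intro u hu
                  simp only [mem_insert, mem_singleton] at hu
                  rcases hu with rfl | rfl | rfl <;> assumption
                · rw [hT'3, card_insert_of_notMem, card_pair hne]
                  simp only [mem_insert, mem_singleton, not_or]
                  exact ⟨hca, hca'⟩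
              rw [← this]
              intro u hu
              simp only [mem_insert, mem_singleton] at hu
              rcases hu with rfl | rfl | rfl
              · exact hcA
              · exact a.2
              · exact a'.2
            · -- T' ⊆ insert (b a') (A.erase a')
              refine down _ _ (hKb a') ?_
              intro u hu
              rcases hmem u hu with rfl | rfl | rfl | rfl
              · exact mem_insert_of_mem (mem_erase.mpr ⟨hca', hcA⟩)
              · exact mem_insert_of_mem (mem_erase.mpr ⟨hne, a.2⟩)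
              · exact absurd hu h5
              · rw [hbb]; exact mem_insert_self _ _
          · refine down _ _ (hKb a) ?_
            intro u hu
            rcases hmem u hu with rfl | rfl | rfl | rfl
            · exact mem_insert_of_mem (mem_erase.mpr ⟨hca, hcA⟩)
            · exact absurd hu h4
            · exact mem_insert_of_mem (mem_erase.mpr ⟨hne.symm, a'.2⟩)
            · exact mem_insert_self _ _
        · refine down _ _ (hKb a') ?_
          intro u hu
          rcases mem_insert.mp (hTI hu) with h | h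
          · rw [h, hbb]; exact mem_insert_self _ _
          · exact mem_insert_of_mem (mem_erase.mpr ⟨fun h' => h3 (h' ▸ hu), h⟩)
      · refine down _ _ (hKb a) ?_
        intro u hu
        rcases mem_insert.mp (hTI hu) with h | h
        · rw [h]; exact mem_insert_self _ _
        · exact mem_insert_of_mem (mem_erase.mpr ⟨fun h' => h2 (h' ▸ hu), h⟩)
    · refine down _ _ hA ?_
      intro u hu
      rcases mem_insert.mp (hTI hu) with h | h
      · exact absurd (h ▸ hu) h1
      · exact h
  -- exchange
  have hex : ∀ a a' c d : {a // a ∈ A}, a ≠ a' → a ≠ c → a ≠ d → a' ≠ c → a' ≠ d → c ≠ d →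
      tt K {b a, b c, b d} = tt K {b a', b c, b d} := by
    intro a a' c d haa' hac had ha'c ha'd hcd
    rw [← twins pairs cover3 iv L4 hA hA4 a.2 (hb a) (hKb a) (hb c) (hb d)
      (hinj c a hac.symm) (hinj d a had.symm) (hinj c d hcd)]
    rw [← twins pairs cover3 iv L4 hA hA4 a'.2 (hb a') (hKb a') (hb c) (hb d)
      (hinj c a' ha'c.symm) (hinj d a' ha'd.symm) (hinj c d hcd)]
    have hsub : ∀ {p q r : {a // a ∈ A}}, p ≠ q → p ≠ r → q ≠ r →
        K {p.1, q.1, b r} := by
      intro p q r hpq hpr hqr
      refine down _ _ (hKb r) ?_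
      intro u hu
      simp only [mem_insert, mem_singleton] at hu
      rcases hu with rfl | rfl | rfl
      · exact mem_insert_of_mem (mem_erase.mpr ⟨fun h => hpr (Subtype.ext h), p.2⟩)
      · exact mem_insert_of_mem (mem_erase.mpr ⟨fun h => hqr (Subtype.ext h), q.2⟩)
      · exact mem_insert_self _ _
    have hcK := hsub haa' hac ha'c
    have hdK := hsub haa' had ha'd
    have hne : a.1 ≠ a'.1 := fun h => haa' (Subtype.ext h)
    have hbcd := hinj c d hcd
    have hnb : ∀ p q : {a // a ∈ A}, p.1 ≠ b q := fun p q h => hb q (h ▸ p.2)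
    -- the 4-set {a, a', b c, b d}
    have hcard : ({a.1, a'.1, b c, b d} : Finset (Fin 10)).card = 4 := by
      rw [card_insert_of_notMem, card_insert_of_notMem, card_pair hbcd]
      · simp only [mem_insert, mem_singleton, not_or]
        exact ⟨hnb a' c, hnb a' d⟩
      · simp only [mem_insert, mem_singleton, not_or]
        exact ⟨hne, hnb a c, hnb a d⟩
    by_cases hI : K {a.1, a'.1, b c, b d}
    · have h1 : K {a.1, b c, b d} := down _ _ hI (by
        intro u hu; simp only [mem_insert, mem_singleton] at hu ⊢; tauto)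
      have h2 : K {a'.1, b c, b d} := down _ _ hI (by
        intro u hu; simp only [mem_insert, mem_singleton] at hu ⊢; tauto)
      rw [tt_of_K h1, tt_of_K h2]
    · -- both are nonfaces
      have h1 : ¬ K {a.1, b c, b d} := by
        obtain ⟨T, hTI, hT3, haT, hTK⟩ := L4 _ hcard hI a.1 (by simp)
        intro h1
        have hmem : ∀ u ∈ T, u = a.1 ∨ u = a'.1 ∨ u = b c ∨ u = b d := by
          intro u hu
          simpa only [mem_insert, mem_singleton] using hTI hu
        by_cases h4 : a'.1 ∈ T
        · by_cases h5 : b c ∈ T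
          · apply hTK
            have : ({a.1, a'.1, b c} : Finset (Fin 10)) = T := by
              apply Finset.eq_of_subset_of_card_le
              · intro u hu
                simp only [mem_insert, mem_singleton] at hu
                rcases hu with rfl | rfl | rfl <;> assumption
              · rw [hT3, card_insert_of_notMem, card_pair (hnb a' c)]
                simp only [mem_insert, mem_singleton, not_or]
                exact ⟨hne, hnb a c⟩
            rw [← this]; exact hcK
          · apply hTK
            refine down _ _ hdK ?_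
            intro u hu
            simp only [mem_insert, mem_singleton]
            rcases hmem u hu with rfl | rfl | rfl | rfl
            · tauto
            · tauto
            · exact absurd hu h5
            · tauto
        · apply hTK
          refine down _ _ h1 ?_
          intro u hu
          simp only [mem_insert, mem_singleton]
          rcases hmem u hu with rfl | rfl | rfl | rfl
          · tauto
          · exact absurd hu h4
          · tauto
          · tauto
      have h2 : ¬ K {a'.1, b c, b d} := by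
        obtain ⟨T, hTI, hT3, haT, hTK⟩ := L4 _ hcard hI a'.1 (by simp)
        intro h1
        have hmem : ∀ u ∈ T, u = a.1 ∨ u = a'.1 ∨ u = b c ∨ u = b d := by
          intro u hu
          simpa only [mem_insert, mem_singleton] using hTI hu
        by_cases h4 : a.1 ∈ T
        · by_cases h5 : b c ∈ T
          · apply hTK
            have : ({a.1, a'.1, b c} : Finset (Fin 10)) = T := by
              apply Finset.eq_of_subset_of_card_le
              · intro u hu
                simp only [mem_insert, mem_singleton] at hu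
                rcases hu with rfl | rfl | rfl <;> assumption
              · rw [hT3, card_insert_of_notMem, card_pair (hnb a' c)]
                simp only [mem_insert, mem_singleton, not_or]
                exact ⟨hne, hnb a c⟩
            rw [← this]; exact hcK
          · apply hTK
            refine down _ _ hdK ?_
            intro u hu
            simp only [mem_insert, mem_singleton]
            rcases hmem u hu with rfl | rfl | rfl | rfl
            · tauto
            · tauto
            · exact absurd hu h5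
            · tauto
        · apply hTK
          refine down _ _ h1 ?_
          intro u hu
          simp only [mem_insert, mem_singleton]
          rcases hmem u hu with rfl | rfl | rfl | rfl
          · exact absurd hu h4
          · tauto
          · tauto
          · tauto
      rw [tt_of_not h1, tt_of_not h2]
  -- enumerate A
  have hA4' : Fintype.card {a // a ∈ A} = 4 := by rw [Fintype.card_coe, hA4]
  let e : Fin 4 ≃ {a // a ∈ A} := (Fintype.equivFinOfCardEq hA4').symm
  have he : ∀ i j : Fin 4, i ≠ j → e i ≠ e j := fun i j hij h => hij (e.injective h)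
  have h01 := he 0 1 (by decide)
  have h02 := he 0 2 (by decide)
  have h03 := he 0 3 (by decide)
  have h12 := he 1 2 (by decide)
  have h13 := he 1 3 (by decide)
  have h23 := he 2 3 (by decide)
  have p2 := P2' pairs cover3 iv L4 hA hA4 (hb (e 0)) (hb (e 1)) (hb (e 2)) (hb (e 3))
    (hinj _ _ h01) (hinj _ _ h02) (hinj _ _ h03) (hinj _ _ h12) (hinj _ _ h13) (hinj _ _ h23)
  -- {0,2,3} = {1,2,3}
  have x1 := hex (e 0) (e 1) (e 2) (e 3) h01 h02 h03 h12 h13 h23
  -- {0,1,3} ~ {2,1,3}
  have x2 := hex (e 0) (e 2) (e 1) (e 3) h02 h01 h03 h12.symm h23 h13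
  -- {0,1,2} ~ {3,1,2}
  have x3 := hex (e 0) (e 3) (e 1) (e 2) h03 h01 h02 h13.symm h23.symm h12
  have y2 : ({b (e 2), b (e 1), b (e 3)} : Finset (Fin 10)) = {b (e 1), b (e 2), b (e 3)} := by
    ext u; simp only [mem_insert, mem_singleton]; tauto
  have y3 : ({b (e 3), b (e 1), b (e 2)} : Finset (Fin 10)) = {b (e 1), b (e 2), b (e 3)} := by
    ext u; simp only [mem_insert, mem_singleton]; tauto
  rw [y2] at x2
  rw [y3] at x3
  omega

end P052H191
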